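import Crest.Agent.KS.Bay
import Crest.Agent.KS.MinHash

/-!
Row 314 (k-server), part E: the dynamic embedding (plan of helper27).

One scale `s`: distances are rescaled, `d = dist / s`.  Constants: `a = 1/16` (ramp of `gg`),
tiny radius `ε = 1/128`, heavy radius `ρ ∈ [1/8, 1/4]`, separation `5/8`, push threshold `11/16`,
light radius `R = 1 + u`, labels use `R ∈ [3/2, 2]`, packing radius `3`, rescaled region `6`, outer
radius `8`, `τ = 1024 = 8 / ε`, heavy test `M(8) - M(ε) ≤ M(ε) / 16`.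
-/

set_option autoImplicit false

namespace Crest.Agent.KS.E

open Finset
open scoped Classical

/-- a pseudometric -/
structure IsMet {X : Type} (d : X → X → ℝ) : Prop where
  self : ∀ x, d x x = 0
  symm : ∀ x y, d x y = d y x
  tri : ∀ x y z, d x z ≤ d x y + d y z
  nonneg : ∀ x y, 0 ≤ d x y

section Heavy

variable {X H : Type} [Fintype H] [Nonempty H]

/-- Katětov functions -/
def Kat (d : X → X → ℝ) (f : X → ℝ) : Prop :=
  (∀ x z, f x ≤ f z + d x z) ∧ ∀ x z, d x z ≤ f x + f z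

/-- valid families of heavy centres -/
def HV (d : X → X → ℝ) (φ : H → X → ℝ) : Prop :=
  (∀ h, Kat d (φ h)) ∧ ∀ h h' x, h ≠ h' → 5 / 8 ≤ φ h x + φ h' x

/-- an unused index -/
def Fresh (φ : H → X → ℝ) (h : H) : Prop := ∀ x, 11 / 16 ≤ φ h x

/-- distance to the nearest heavy centre -/
noncomputable def Phi (φ : H → X → ℝ) (x : X) : ℝ := univ.inf' univ_nonempty (fun h => φ h x)

/-- the ramp -/
noncomputable def gg (φ : H → X → ℝ) (x : X) : ℝ := max 0 (min 1 (16 * Phi φ x - 1))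

/-- the lag potential -/
noncomputable def psi (φ : H → X → ℝ) (x : X) : ℝ := (min (Phi φ x) (1 / 16)) ^ 2

/-- choice of an element satisfying `p` -/
noncomputable def pick (p : H → Prop) : Option H := if h : ∃ h, p h then some h.choose else none

/-- heavy label -/
noncomputable def hl (φ : H → X → ℝ) (ρ : ℝ) (x : X) : Option H := pick (fun h => φ h x ≤ ρ)

/-- probability that the heavy labels differ -/
noncomputable def hc (φ : H → X → ℝ) (x : X) (φ' : H → X → ℝ) (x' : X) : ℝ :=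
  8 * ∫ ρ in (1 / 8 : ℝ)..(1 / 4), if hl φ ρ x = hl φ' ρ x' then (0 : ℝ) else 1

end Heavy

section Light

variable {X : Type} [Fintype X]

/-- mass of a closed ball -/
noncomputable def ms (d : X → X → ℝ) (m : X → ℝ) (y : X) (r : ℝ) : ℝ :=
  ∑ x, if d y x ≤ r then m x else 0

/-- normalised number of tokens in a ball -/
noncomputable def om (d : X → X → ℝ) (Q : ℕ) (n : X → ℕ) (x : X) (R : ℝ) : ℝ :=
  ms d (fun c => (n c : ℝ)) x R / Q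

/-- packing invariant -/
def Pack (d : X → X → ℝ) (Q : ℕ) (n : X → ℕ) : Prop := ∀ x, om d Q n x 3 ≤ 1

noncomputable def e0 (I : ℕ) : ℝ := 1 / 2 ^ (I + 1)

/-- the levels; `lv I I` is the maximum of `LL` -/
noncomputable def lv (I i : ℕ) : ℝ := Real.log ((1 + e0 I) * 2 ^ (i + 1))

noncomputable def LL (d : X → X → ℝ) (I Q : ℕ) (n : X → ℕ) (x : X) (R : ℝ) : ℝ :=
  Real.log ((1 + e0 I) / (e0 I + om d Q n x R))

/-- the light potential of a unit of mass at `x` with ramp value `g` -/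
noncomputable def PL (d : X → X → ℝ) (I Q : ℕ) (n : X → ℕ) (g : ℝ) (x : X) : ℝ :=
  ∫ u in (0 : ℝ)..g, 2 * u * LL d I Q n x (1 + u)

/-- its tail above the level `c` -/
noncomputable def TL (d : X → X → ℝ) (I Q : ℕ) (n : X → ℕ) (g : ℝ) (x : X) (c : ℝ) : ℝ :=
  ∫ u in (0 : ℝ)..g, 2 * u * max 0 (LL d I Q n x (1 + u) - c)

/-- the slope -/
noncomputable def ZZ (d : X → X → ℝ) (I Q : ℕ) (n : X → ℕ) (g : ℝ) (y : X) : ℝ :=
  ∫ u in (0 : ℝ)..g, LL d I Q n y (1 + u)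

/-- the tokens seen from `x` -/
noncomputable def tk (d : X → X → ℝ) (Q : ℕ) (n : X → ℕ) (x : X) (R : ℝ) : Finset (X × Fin Q) :=
  univ.filter (fun p => d x p.1 ≤ R ∧ (p.2 : ℕ) < n p.1)

/-- orders of the tokens -/
abbrev Ord (X : Type) [Fintype X] (Q : ℕ) : Type := (X × Fin Q) ≃ Fin (Fintype.card (X × Fin Q))

/-- light label -/
noncomputable def ll (d : X → X → ℝ) (Q : ℕ) (n : X → ℕ) (R : ℝ) (o : Ord X Q) (x : X) :
    (X × Fin Q) ⊕ X :=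
  (first o (tk d Q n x R)).elim (Sum.inr x) Sum.inl

/-- probability (over the order) that the light labels differ -/
noncomputable def lo (d : X → X → ℝ) (Q : ℕ) (n : X → ℕ) (x : X) (n' : X → ℕ) (x' : X) (R : ℝ) : ℝ :=
  (∑ o : Ord X Q, if ll d Q n R o x = ll d Q n' R o x' then (0 : ℝ) else 1) / Fintype.card (Ord X Q)

/-- probability (over the radius and the order) that the light labels differ -/
noncomputable def lc (d : X → X → ℝ) (Q : ℕ) (n : X → ℕ) (x : X) (n' : X → ℕ) (x' : X) : ℝ :=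
  2 * ∫ R in (3 / 2 : ℝ)..2, lo d Q n x n' x' R

/-- cover of level `i` at `y` -/
noncomputable def cov (d : X → X → ℝ) (Q i : ℕ) (y : X) (n : X → ℕ) : X → ℕ := fun c =>
  (if d y c ≤ 6 then n c - n c / 2 ^ i else n c) + if c = y then Q / 2 ^ (i + 1) else 0

/-- the mass near `y` that is seen by the light layer -/
noncomputable def mh (d : X → X → ℝ) (m g : X → ℝ) (y : X) : ℝ :=
  ∑ x, if d y x ≤ 8 ∧ 0 < g x then m x else 0

/-- stable tokens: all tails are small -/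
def Stab (d : X → X → ℝ) (I Q : ℕ) (n : X → ℕ) (m g : X → ℝ) (y : X) (A : ℝ) : Prop :=
  ∀ i, 1 ≤ i → i ≤ I →
    (∑ x, if d y x ≤ 1 then m x * TL d I Q n (g x) x (lv I i + 1) else 0) ≤ 5 / 2 ^ i * A

/-- the smooth logarithmic mass ratio -/
noncomputable def ell (d : X → X → ℝ) (m : X → ℝ) (y : X) : ℝ :=
  ∫ u in (0 : ℝ)..1, (Real.log (ms d m y 8) - Real.log (ms d m y (u / 128)))

/-- first moment of the tiny ball -/
noncomputable def WW (d : X → X → ℝ) (m : X → ℝ) (y : X) : ℝ :=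
  ∑ x, if d y x ≤ 1 / 128 then m x * d y x else 0

/-- the parameters -/
def Par (X : Type) [Fintype X] (k I Q : ℕ) : Prop :=
  13 ≤ I ∧ 8192 * k ≤ 2 ^ I ∧ ∃ q : ℕ, 0 < q ∧ Fintype.card X ≤ q ∧ Q = 2 ^ (I + 1) * q

/-- the measures before (`m0`, long moves done) and after (`m1`) the move, and the expected short
move `D` -/
structure RelM (d : X → X → ℝ) (k : ℕ) (y : X) (m0 m1 : X → ℝ) (D : ℝ) : Prop where
  h0 : ∀ x, 0 ≤ m0 x
  h1 : ∀ x, 0 ≤ m1 x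
  hD : 0 ≤ D
  hD' : D ≤ 1 / 128
  one : 1 ≤ m1 y
  tot : ∑ x, m1 x ≤ k
  eq : ∀ r, 1 / 128 ≤ r → ms d m0 y r = ms d m1 y r
  mkv : ∀ r, 0 < r → ms d m1 y r - D / r ≤ ms d m0 y r
  ww : WW d m0 y ≤ WW d m1 y + D

end Light

/-- the state of one scale -/
structure St (X H : Type) where
  φ : H → X → ℝ
  n : X → ℕ

section State

variable {X H : Type} [Fintype X] [Fintype H] [Nonempty H]

def Valid (d : X → X → ℝ) (Q : ℕ) (S : St X H) : Prop := HV d S.φ ∧ Pack d Q S.n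

/-- potential of a unit of mass at `x` -/
noncomputable def pot (d : X → X → ℝ) (I Q : ℕ) (S : St X H) (x : X) : ℝ :=
  8 * PL d I Q S.n (gg S.φ x) x + 16384 * psi S.φ x

/-- bound of the probability that the labels differ -/
noncomputable def ec (d : X → X → ℝ) (Q : ℕ) (S : St X H) (x : X) (S' : St X H) (x' : X) : ℝ :=
  hc S.φ x S'.φ x' + if gg S.φ x = 1 ∧ gg S'.φ x' = 1 then lc d Q S.n x S'.n x' else 0

/-- the label -/
noncomputable def lab (d : X → X → ℝ) (Q : ℕ) (S : St X H) (ρ R : ℝ) (o : Ord X Q) (x : X) :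
    H ⊕ ((X × Fin Q) ⊕ X) :=
  (hl S.φ ρ x).elim (Sum.inr (ll d Q S.n R o x)) Sum.inl

/-- the anchor (in the units of the scale) -/
noncomputable def anc (d : X → X → ℝ) (Q : ℕ) (S : St X H) : H ⊕ ((X × Fin Q) ⊕ X) → X → ℝ :=
  Sum.elim S.φ (Sum.elim (fun p => d p.1) d)

/-- the conclusion of one step -/
def StepOK (d : X → X → ℝ) (I Q : ℕ) (C : ℝ) (S : St X H) (f : H) (y : X) (m0 m1 : X → ℝ) (D : ℝ)
    (S' : St X H) (Lip : ℝ) : Prop :=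
  Valid d Q S' ∧ (∀ h, h ≠ f → Fresh S.φ h → Fresh S'.φ h) ∧
  (∀ h x x' z, S.φ h x' ≤ 1 / 4 → S'.φ h x ≤ 1 / 4 →
    |S'.φ h z - S.φ h z| ≤ 8 * D / ms d m1 y (d y x)) ∧
  (∀ x, d y x ≤ 1 / 128 → pot d I Q S' y - pot d I Q S' x + ec d Q S' x S' y ≤ d y x * Lip) ∧
  ∑ x, m0 x * (pot d I Q S' x - pot d I Q S x + ec d Q S x S' x) + D * Lip ≤
    C * (D * (ell d m1 y + WW d m1 y / ms d m1 y (1 / 128)) + lv I I * D ^ 2)

end State

section Proc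

variable {X Ω : Type} [MetricSpace X] [Fintype X] [Fintype Ω] {k : ℕ}

/-- rescaled distance -/
noncomputable def ds (s : ℝ) (x y : X) : ℝ := dist x y / s

/-- length of the offline move at time `t` -/
noncomputable def mvd (s0 : Fin k → X) (σ : ℕ → X) (j : ℕ → Fin k) (t : ℕ) : ℝ :=
  dist (optCfg s0 σ j t (j t)) (σ t)

/-- the configuration after the long move -/
noncomputable def p0 (s : ℝ) (s0 : Fin k → X) (σ : ℕ → X) (j : ℕ → Fin k) (t : ℕ) : Fin k → X :=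
  if mvd s0 σ j t / s ≤ 1 / 128 then optCfg s0 σ j t else optCfg s0 σ j (t + 1)

/-- posterior mass after the move -/
noncomputable def M1 (P : Bay Ω) (s0 : Fin k → X) (σ : Ω → ℕ → X) (j : Ω → ℕ → Fin k) (t : ℕ)
    (ω : Ω) (x : X) : ℝ :=
  P.cond (t + 1) (fun b => ∑ i, if optCfg s0 (σ b) (j b) (t + 1) i = x then 1 else 0) ω

/-- posterior mass after the long moves -/
noncomputable def M0 (P : Bay Ω) (s : ℝ) (s0 : Fin k → X) (σ : Ω → ℕ → X) (j : Ω → ℕ → Fin k)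
    (t : ℕ) (ω : Ω) (x : X) : ℝ :=
  P.cond (t + 1) (fun b => ∑ i, if p0 s s0 (σ b) (j b) t i = x then 1 else 0) ω

/-- posterior length of the short move, in the units of the scale -/
noncomputable def DS (P : Bay Ω) (s : ℝ) (s0 : Fin k → X) (σ : Ω → ℕ → X) (j : Ω → ℕ → Fin k)
    (t : ℕ) (ω : Ω) : ℝ :=
  P.cond (t + 1) (fun b => if mvd s0 (σ b) (j b) t / s ≤ 1 / 128 then mvd s0 (σ b) (j b) t / s
    else 0) ω

/-- posterior length of the move -/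
noncomputable def DF (P : Bay Ω) (s0 : Fin k → X) (σ : Ω → ℕ → X) (j : Ω → ℕ → Fin k)
    (t : ℕ) (ω : Ω) : ℝ :=
  P.cond (t + 1) (fun b => mvd s0 (σ b) (j b) t) ω

/-- the budget of one step at the scale `s`, in the units of the scale -/
noncomputable def bud (P : Bay Ω) (I : ℕ) (s : ℝ) (s0 : Fin k → X) (σ : Ω → ℕ → X)
    (j : Ω → ℕ → Fin k) (t : ℕ) (ω : Ω) : ℝ :=
  DS P s s0 σ j t ω * (ell (ds s) (M1 P s0 σ j t ω) (σ ω t) +
      WW (ds s) (M1 P s0 σ j t ω) (σ ω t) / ms (ds s) (M1 P s0 σ j t ω) (σ ω t) (1 / 128)) +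
    lv I I * DS P s s0 σ j t ω ^ 2 +
    if mvd s0 (σ ω) (j ω) t / s ≤ 1 / 128 then 0 else lv I I

/-- the expected label changes of one step at the scale `s` -/
noncomputable def ecs {H : Type} [Fintype H] [Nonempty H] (Q : ℕ) (s : ℝ) (s0 : Fin k → X)
    (σ : ℕ → X) (j : ℕ → Fin k) (t : ℕ) (S S' : St X H) : ℝ :=
  (∑ i, ec (ds s) Q S (p0 s s0 σ j t i) S' (p0 s s0 σ j t i)) +
    if mvd s0 σ j t / s ≤ 1 / 128 then ec (ds s) Q S' (optCfg s0 σ j t (j t)) S' (σ t) else 0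

/-- the process of the states of one scale -/
def ProcOK {H : Type} [Fintype H] [Nonempty H] (P : Bay Ω) (I Q : ℕ) (C s : ℝ) (n : ℕ)
    (s0 : Fin k → X) (σ : Ω → ℕ → X) (j : Ω → ℕ → Fin k) (S : ℕ → Ω → St X H) : Prop :=
  (∀ t, P.Ad t (S t)) ∧ (∀ t ω, Valid (ds s) Q (S t ω)) ∧
  (∀ t ω h x x' z, (S t ω).φ h x' ≤ 1 / 4 → (S (t + 1) ω).φ h x ≤ 1 / 4 →
    s * |(S (t + 1) ω).φ h z - (S t ω).φ h z| ≤
      8 * DF P s0 σ j t ω / ms dist (M1 P s0 σ j t ω) (σ ω t) (dist (σ ω t) x)) ∧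
  P.Ex (fun ω => ∑ t ∈ range n, ecs Q s s0 (σ ω) (j ω) t (S t ω) (S (t + 1) ω)) ≤
    C * (P.Ex (fun ω => ∑ t ∈ range n, bud P I s s0 σ j t ω) + k * lv I I)

end Proc

/-! ### The tasks -/

/-- **BAS**. Basic facts on the light layer. `om` is monotone in `R`, so `LL` is antitone
(`Antitone.intervalIntegrable`, products with continuous functions, `max`). -/
def BasStmt : Prop :=
  ∀ (X : Type) [Fintype X] (d : X → X → ℝ) (I Q : ℕ) (n : X → ℕ), IsMet d →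
    (0 < e0 I ∧ e0 I ≤ 1 / 2 ∧ (∀ i, lv I (i + 1) = lv I i + Real.log 2) ∧
      (∀ i : ℕ, (i + 1) * Real.log 2 ≤ lv I i ∧ lv I i ≤ (i + 2) * Real.log 2) ∧
      lv I I = Real.log ((1 + e0 I) / e0 I)) ∧
    (∀ x R, 0 ≤ om d Q n x R ∧ LL d I Q n x R ≤ lv I I) ∧
    (∀ x x' R R', R + d x x' ≤ R' → om d Q n x R ≤ om d Q n x' R' ∧
      LL d I Q n x' R' ≤ LL d I Q n x R) ∧
    (∀ (x : X) (c a b : ℝ),
      IntervalIntegrable (fun u => LL d I Q n x (c + u)) MeasureTheory.volume a b ∧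
      IntervalIntegrable (fun u => 2 * u * LL d I Q n x (1 + u)) MeasureTheory.volume a b ∧
      IntervalIntegrable (fun u => 2 * u * max 0 (LL d I Q n x (1 + u) - c))
        MeasureTheory.volume a b) ∧
    (∀ x g c, 0 ≤ g → 0 ≤ TL d I Q n g x c ∧
      g ^ 2 * (LL d I Q n x (1 + g) - c) ≤ TL d I Q n g x c) ∧
    (Pack d Q n → (∀ x R, R ≤ 3 → om d Q n x R ≤ 1 ∧ 0 ≤ LL d I Q n x R) ∧
      (∀ x g g', 0 ≤ g → g ≤ g' → g' ≤ 1 → PL d I Q n g x ≤ PL d I Q n g' x) ∧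
      (∀ x g, 0 ≤ g → g ≤ 1 → 0 ≤ PL d I Q n g x ∧ PL d I Q n g x ≤ lv I I ∧
        0 ≤ ZZ d I Q n g x) ∧
      (0 < Q → ∀ x R, R ≤ 3 → ((tk d Q n x R).card : ℝ) = Q * om d Q n x R))

/-- **MS**. Basic facts on ball masses; `ell` (the integrand is antitone in `u`, bounded below by
its value at `u = 1`). -/
def MsStmt : Prop :=
  ∀ (X : Type) [Fintype X] (d : X → X → ℝ) (m : X → ℝ) (y : X), IsMet d → (∀ x, 0 ≤ m x) →
    (∀ r r', r ≤ r' → ms d m y r ≤ ms d m y r') ∧ (∀ r, 0 ≤ ms d m y r ∧ ms d m y r ≤ ∑ x, m x) ∧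
    (∀ r, 0 ≤ r → m y ≤ ms d m y r) ∧ 0 ≤ WW d m y ∧ (∀ g : X → ℝ, mh d m g y ≤ ms d m y 8) ∧
    (∀ g : X → ℝ, (∀ x, d y x ≤ 1 / 128 → g x = 0) →
      mh d m g y ≤ ms d m y 8 - ms d m y (1 / 128)) ∧
    (1 ≤ m y →
      IntervalIntegrable (fun u : ℝ => Real.log (ms d m y 8) - Real.log (ms d m y (u / 128)))
        MeasureTheory.volume 0 1 ∧
      0 ≤ Real.log (ms d m y 8) - Real.log (ms d m y (1 / 128)) ∧
      Real.log (ms d m y 8) - Real.log (ms d m y (1 / 128)) ≤ ell d m y)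

/-- **INT**. The integrands of `hc` and `lc` are functions of the finite patterns
`fun h => φ h x ≤ ρ`, `fun c => d x c ≤ R`, hence measurable and bounded. -/
def IntStmt : Prop :=
  (∀ (X H : Type) [Fintype H] [Nonempty H] (φ φ' : H → X → ℝ) (x x' : X),
    (∀ a b : ℝ, IntervalIntegrable (fun ρ => if hl φ ρ x = hl φ' ρ x' then (0 : ℝ) else 1)
      MeasureTheory.volume a b) ∧ 0 ≤ hc φ x φ' x' ∧ hc φ x φ' x' ≤ 1) ∧
  ∀ (X : Type) [Fintype X] (d : X → X → ℝ) (Q : ℕ) (n n' : X → ℕ) (x x' : X),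
    (∀ a b : ℝ, IntervalIntegrable (lo d Q n x n' x') MeasureTheory.volume a b) ∧
    (∀ R, 0 ≤ lo d Q n x n' x' R ∧ lo d Q n x n' x' R ≤ 1) ∧
    0 ≤ lc d Q n x n' x' ∧ lc d Q n x n' x' ≤ 1 ∧ lc d Q n x n x = 0

/-- **SEED**. Choose `ρ` below the average of the heavy part, then `R` and the order below the
average of the light part; if both heavy labels are `none` then `Phi > ρ ≥ 1/8`, so `gg = 1`. -/
def SeedStmt : Prop :=
  ∀ (X H ι : Type) [Fintype X] [Fintype H] [Nonempty H] (Q : ℕ) (A : Finset ι) (w : ι → ℝ)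
    (d : ι → X → X → ℝ) (S S' : ι → St X H) (x x' : ι → X), (∀ i, 0 ≤ w i) →
    ∃ (ρ R : ℝ) (o : Ord X Q), 1 / 8 ≤ ρ ∧ ρ ≤ 1 / 4 ∧ 3 / 2 ≤ R ∧ R ≤ 2 ∧
      ∑ i ∈ A, w i * (if lab (d i) Q (S i) ρ R o (x i) = lab (d i) Q (S' i) ρ R o (x' i)
        then (0 : ℝ) else 1) ≤ ∑ i ∈ A, w i * ec (d i) Q (S i) (x i) (S' i) (x' i)

/-- **COV1**. One cover, pointwise. `b = Q / 2^(i+1) ≥ card X`, `n - n / 2^i ∈ [(1-δ) n, (1-δ) n + 1]`,
`e0 + ω' ≥ (1-δ)(e0 + ω)`; `|S ∆ S'| ≤ δ |S| + b 1[y seen]`, `b/|S'| ≤ 2 (L - L' + 2δ)` from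
`log t ≥ 1 - 1/t` and `e0 ≤ b / Q ≤ ω'` (`minhash_avg`). -/
def Cov1Stmt : Prop :=
  ∀ (X : Type) [Fintype X] (d : X → X → ℝ) (k I Q i : ℕ) (n : X → ℕ) (y : X), IsMet d →
    Par X k I Q → 1 ≤ i → i ≤ I → Pack d Q n →
    Pack d Q (cov d Q i y n) ∧
    (∀ x R, LL d I Q (cov d Q i y n) x R ≤ LL d I Q n x R + 2 / 2 ^ i) ∧
    (∀ x R, d y x ≤ R → LL d I Q (cov d Q i y n) x R ≤ lv I i) ∧
    (∀ x R, 8 < d y x → R ≤ 2 → LL d I Q (cov d Q i y n) x R = LL d I Q n x R ∧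
      lo d Q n x (cov d Q i y n) x R = 0) ∧
    ∀ x R, R ≤ 3 → lo d Q n x (cov d Q i y n) x R ≤
      1 / 2 ^ i + 2 * (LL d I Q n x R - LL d I Q (cov d Q i y n) x R + 2 / 2 ^ i)

/-- **COV2**. One cover, integrated. With `h = L - L' + 2δ ≥ 0`: `8 ΔPL ≤ 16 δ - 8 ∫ 2 u h`,
`lc ≤ δ + 4 ∫_{1/2}^1 h ≤ δ + 4 ∫_0^1 2 u h`, and `h ≥ (L - lv i)_+` when `d y x ≤ 1`. -/
def Cov2Stmt : Prop :=
  ∀ (X : Type) [Fintype X] (d : X → X → ℝ) (k I Q i : ℕ) (n : X → ℕ) (y : X) (m g : X → ℝ),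
    IsMet d → Par X k I Q → 1 ≤ i → i ≤ I → Pack d Q n → (∀ x, 0 ≤ m x) →
    (∀ x, 0 ≤ g x ∧ g x ≤ 1) →
    ∑ x, m x * (8 * (PL d I Q (cov d Q i y n) (g x) x - PL d I Q n (g x) x) +
        if g x = 1 then lc d Q n x (cov d Q i y n) x else 0) ≤
      17 / 2 ^ i * mh d m g y -
        4 * ∑ x, if d y x ≤ 1 then m x * TL d I Q n (g x) x (lv I i) else 0

/-- **COV3**. Take the least `i ∈ [1, I]` whose cover is self-financed (right side of COV2 `≤ 0`),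
or no cover. Smaller levels: `L' ≤ L + 1`; larger levels: `L' ≤ lv i` on the ball (tail `0`). -/
def Cov3Stmt : Prop :=
  ∀ (X : Type) [Fintype X] (d : X → X → ℝ) (k I Q : ℕ) (n : X → ℕ) (y : X) (m g : X → ℝ),
    IsMet d → Par X k I Q → Pack d Q n → (∀ x, 0 ≤ m x) → (∀ x, 0 ≤ g x ∧ g x ≤ 1) →
    ∃ n' : X → ℕ, Pack d Q n' ∧
      ∑ x, m x * (8 * (PL d I Q n' (g x) x - PL d I Q n (g x) x) +
        if g x = 1 then lc d Q n x n' x else 0) ≤ 0 ∧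
      Stab d I Q n' m g y (mh d m g y)

/-- **EMI**. Emission. Pointwise, with `Y = LL x (1 + g) ∈ [0, lv I I]`:
`PL g' - PL g ≤ 2 β g Y + β² lv I I` and `g Y ≤ 10 + ∑_{i=1}^I (3/2)^i TL g (lv i + 1)` (take the
largest `i` with `lv i + 2 ≤ Y`, AM-GM). -/
def EmiStmt : Prop :=
  ∃ C : ℝ, 0 ≤ C ∧ ∀ (X : Type) [Fintype X] (d : X → X → ℝ) (I Q : ℕ) (n : X → ℕ) (y : X)
    (m g g' : X → ℝ) (A β : ℝ), IsMet d → Pack d Q n → (∀ x, 0 ≤ m x) → 0 ≤ β →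
    (∀ x, 0 ≤ g x ∧ g x ≤ g' x ∧ g' x ≤ g x + β ∧ g' x ≤ 1) → (∀ x, 1 < d y x → g' x = g x) →
    mh d m g' y ≤ A → Stab d I Q n m g y A →
    ∑ x, m x * (PL d I Q n (g' x) x - PL d I Q n (g x) x) ≤ C * β * A + β ^ 2 * lv I I * A

/-- **ZB**. The slope in a stable state. For `256 D ≤ u ≤ g y`, `u > 0`: the points `x` with
`d y x ≤ u/128` have `g x ≥ 3u/4`, `TL (g x) x c ≥ TL (3u/4) x c ≥ (9/16) u² (LL y (1+u) - c)`, and
`m0`-mass `≥ ms m1 (u/128) / 2`; take the least `i ≥ 1` with `2^i ≥ T = 18 M / (ms m1 (u/128) u²)`: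
`LL y (1+u) ≤ lv i + 2 ≤ log (8 T) + 2` (if `i > I` use `LL ≤ lv I I ≤ lv I i`). -/
def ZbStmt : Prop :=
  ∃ C : ℝ, 0 ≤ C ∧ ∀ (X : Type) [Fintype X] (d : X → X → ℝ) (k I Q : ℕ) (n : X → ℕ) (y : X)
    (m0 m1 g : X → ℝ) (D : ℝ), IsMet d → Pack d Q n → RelM d k y m0 m1 D →
    (∀ x, 0 ≤ g x ∧ g x ≤ 1) → (∀ x, g y ≤ g x + 16 * d y x) →
    Stab d I Q n m0 g y (ms d m1 y 8) →
    ZZ d I Q n (g y) y ≤ C * (1 + ell d m1 y + lv I I * D)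

/-- **NE**. In a stable state the request sees tokens: otherwise `LL y (5/4) ≥ lv I I - log 2`, and
the level `I - 4` on the tiny ball (`TL ≥ TL (1/8) ≥ 1/64`, mass `≥ 1`) contradicts `8192 k ≤ 2^I`. -/
def NeStmt : Prop :=
  ∀ (X : Type) [Fintype X] (d : X → X → ℝ) (k I Q : ℕ) (n : X → ℕ) (y : X)
    (m0 m1 g : X → ℝ) (D : ℝ), IsMet d → Par X k I Q → Pack d Q n → RelM d k y m0 m1 D →
    (∀ x, 0 ≤ g x ∧ g x ≤ 1) → (∀ x, g y ≤ g x + 16 * d y x) →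
    Stab d I Q n m0 g y (ms d m1 y 8) → g y = 1 → e0 I ≤ om d Q n y (5 / 4)

/-- **MOV1**. Short move, potential: `LL x (1+u) ≥ LL y (1+u+δ)`, shift the integral,
`v * LL y (1+v) ≤ ZZ`. -/
def Mov1Stmt : Prop :=
  ∀ (X : Type) [Fintype X] (d : X → X → ℝ) (I Q : ℕ) (n : X → ℕ) (x y : X) (gx gy : ℝ),
    IsMet d → Pack d Q n → d y x ≤ 1 / 128 → 0 ≤ gx → gx ≤ 1 → 0 ≤ gy → gy ≤ 1 →
    gy ≤ gx + 16 * d y x →
    PL d I Q n gy y - PL d I Q n gx x ≤ 34 * d y x * ZZ d I Q n gy y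

/-- **MOV2**. Short move, cut: both token sets lie between `tk y (R - δ)` and `tk y (R + δ)`, so
`lo ≤ 1 - ω₋/ω₊ ≤ 2 (LL y (R-δ) - LL y (R+δ))`; the integral telescopes to
`≤ 8 δ LL y (5/4) ≤ 32 δ ZZ 1`. -/
def Mov2Stmt : Prop :=
  ∀ (X : Type) [Fintype X] (d : X → X → ℝ) (I Q : ℕ) (n : X → ℕ) (x y : X),
    IsMet d → 0 < Q → Pack d Q n → d y x ≤ 1 / 128 → e0 I ≤ om d Q n y (5 / 4) →
    lc d Q n x n y ≤ 32 * d y x * ZZ d I Q n 1 y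

/-- **HV0**. Basic facts on the heavy layer. By separation at most one index matters. -/
def Hv0Stmt : Prop :=
  ∀ (X H : Type) [Fintype H] [Nonempty H] (φ : H → X → ℝ),
    (∀ h x, Phi φ x ≤ φ h x) ∧ (∀ x, ∃ h, Phi φ x = φ h x) ∧
    (∀ x, 0 ≤ gg φ x ∧ gg φ x ≤ 1 ∧ 0 ≤ psi φ x) ∧
    (∀ (φ' : H → X → ℝ) (x x' : X) (β : ℝ), 0 ≤ β → Phi φ' x' ≤ Phi φ x + β → 0 ≤ Phi φ x →
      0 ≤ Phi φ' x' → gg φ' x' ≤ gg φ x + 16 * β ∧
      psi φ' x' - psi φ x ≤ 2 * min (Phi φ' x') (1 / 16) * β) ∧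
    (∀ (φ' : H → X → ℝ) (x x' : X),
      (∀ h, φ h x = φ' h x' ∨ (1 / 4 < φ h x ∧ 1 / 4 < φ' h x')) →
      hc φ x φ' x' = 0 ∧ gg φ' x' = gg φ x ∧ psi φ' x' = psi φ x) ∧
    ∀ d : X → X → ℝ, IsMet d → HV d φ →
      (∀ x, 0 ≤ Phi φ x ∧ psi φ x ≤ 1 / 256) ∧ (∀ x z, Phi φ x ≤ Phi φ z + d x z) ∧
      ∀ (φ' : H → X → ℝ) (x x' : X) (β : ℝ), β ≤ 1 / 32 → (∀ h, |φ' h x' - φ h x| ≤ β) →
        hc φ x φ' x' ≤ 8 * β ∧
        ∀ h, φ h x ≤ 1 / 8 → φ' h x' ≤ 1 / 8 → hc φ x φ' x' = 0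

/-- **HV1**. Drift: `φ' h0 = (1-θ) φ h0 + θ d y`, `θ r = δ`; every other `h` with `φ h y < 11/16` is
pushed, `φ' h = φ h + δ`. Lag: `φ'² - φ² ≤ θ (d² - φ²) ≤ -δ r/2 + 8 δ d` (cases `d ≤ r/4`, `d > r/4`;
`|d - r| ≤ φ`). -/
def Hv1Stmt : Prop :=
  ∀ (X H : Type) [Fintype H] [Nonempty H] (d : X → X → ℝ) (φ : H → X → ℝ) (y : X) (h0 : H) (δ : ℝ),
    IsMet d → HV d φ → φ h0 y ≤ 1 / 32 → 0 ≤ δ → δ ≤ φ h0 y →
    ∃ φ' : H → X → ℝ, HV d φ' ∧ (∀ h, Fresh φ h → Fresh φ' h) ∧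
      (∀ h x, |φ' h x - φ h x| ≤ δ) ∧ (∀ h x, φ' h x ≤ 1 / 4 → φ' h = φ h ∨ d y x ≤ 1) ∧
      Phi φ' y ≤ φ h0 y - δ ∧
      (∀ x, d y x ≤ 1 / 128 → gg φ x = 0 ∧ gg φ' x = 0 ∧ hc φ x φ' x = 0 ∧ hc φ' x φ' y = 0 ∧
        psi φ' x - psi φ x ≤ -δ * φ h0 y / 2 + 8 * δ * d y x) ∧
      (∀ x, 1 < d y x → gg φ' x = gg φ x ∧ psi φ' x = psi φ x ∧ hc φ x φ' x = 0) ∧
      ∀ x, gg φ' x ≤ gg φ x + 16 * δ ∧ psi φ' x - psi φ x ≤ δ / 8 ∧ hc φ x φ' x ≤ 8 * δ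

/-- **HV2**. Creation: `φ' f = d y`; every other `h` with `φ h y < 11/16` is killed,
`φ' h = φ h + 11/16`. -/
def Hv2Stmt : Prop :=
  ∀ (X H : Type) [Fintype H] [Nonempty H] (d : X → X → ℝ) (φ : H → X → ℝ) (y : X) (f : H),
    IsMet d → HV d φ → (∀ h, 1 / 32 < φ h y) → Fresh φ f →
    ∃ φ' : H → X → ℝ, HV d φ' ∧ (∀ h, h ≠ f → Fresh φ h → Fresh φ' h) ∧
      (∀ h x, h ≠ f → φ' h x ≤ 1 / 4 → φ' h = φ h) ∧ Phi φ' y = 0 ∧
      (∀ x, d y x ≤ 1 / 128 → gg φ' x = 0 ∧ hc φ' x φ' y = 0 ∧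
        psi φ' x - psi φ x ≤ -1 / 2048) ∧
      (∀ x, 1 < d y x → gg φ' x = gg φ x ∧ psi φ' x = psi φ x ∧ hc φ x φ' x = 0)

/-- **STN**. Non-heavy step: `φ' = φ`, tokens by COV3 with `g = gg φ`,
`Lip = (8 * 34 + 32) ZZ + 16384 / 8 + 8`; ZB, and `1 ≤ C ell` because `ell ≥ log (17/16)`. -/
def StnStmt : Prop :=
  ∃ C : ℝ, 0 ≤ C ∧ ∀ (X H : Type) [Fintype X] [Fintype H] [Nonempty H] (d : X → X → ℝ)
    (k I Q : ℕ) (S : St X H) (f : H) (y : X) (m0 m1 : X → ℝ) (D : ℝ), IsMet d → Par X k I Q →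
    Valid d Q S → RelM d k y m0 m1 D →
    ms d m1 y (1 / 128) / 16 < ms d m1 y 8 - ms d m1 y (1 / 128) →
    ∃ S' Lip, StepOK d I Q C S f y m0 m1 D S' Lip

/-- **STD**. Drift step: `μ = ms m1 (1/128) ≥ 1`, `A = ms m1 8 - μ ≤ μ/16`, `r = φ h0 y`,
`δ = min r (4 D / μ)`, HV1, COV3 with `g = min (gg φ) (gg φ')`, EMI with `β = 16 δ`,
`Lip = 2 * 16384 * (r - δ)`; `A / μ ≤ 2 ell`, `δ² A ≤ D²`, `lv I I ≥ 1`. -/
def StdStmt : Prop :=
  ∃ C : ℝ, 0 ≤ C ∧ ∀ (X H : Type) [Fintype X] [Fintype H] [Nonempty H] (d : X → X → ℝ)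
    (k I Q : ℕ) (S : St X H) (f : H) (y : X) (m0 m1 : X → ℝ) (D : ℝ) (h0 : H), IsMet d →
    Par X k I Q → Valid d Q S → RelM d k y m0 m1 D →
    ms d m1 y 8 - ms d m1 y (1 / 128) ≤ ms d m1 y (1 / 128) / 16 → S.φ h0 y ≤ 1 / 32 →
    ∃ S' Lip, StepOK d I Q C S f y m0 m1 D S' Lip

/-- **STC**. Creation step: HV2, `n' = cov 1`, COV2 with `g = min (gg φ) (gg φ')` costs `≤ 17/2 A`,
emission `≤ 8 lv I 1 * A ≤ 17 A` (`LL' ≤ lv I 1` near `y`), `hc ≤ 1` on mass `μ + A`, lag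
`≤ 16384 (-μ/2048 + A/256)`; total `≤ 0`, `Lip = 0`. -/
def StcStmt : Prop :=
  ∀ (X H : Type) [Fintype X] [Fintype H] [Nonempty H] (d : X → X → ℝ)
    (k I Q : ℕ) (S : St X H) (f : H) (y : X) (m0 m1 : X → ℝ) (D : ℝ), IsMet d →
    Par X k I Q → Valid d Q S → RelM d k y m0 m1 D → Fresh S.φ f →
    ms d m1 y 8 - ms d m1 y (1 / 128) ≤ ms d m1 y (1 / 128) / 16 → (∀ h, 1 / 32 < S.φ h y) →
    ∃ S' Lip, StepOK d I Q 0 S f y m0 m1 D S' Lip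

/-- **STEP**. Case split (the budget is nonnegative, so `StepOK` is monotone in `C`). -/
def StepStmt : Prop :=
  ∃ C : ℝ, 0 ≤ C ∧ ∀ (X H : Type) [Fintype X] [Fintype H] [Nonempty H] (d : X → X → ℝ)
    (k I Q : ℕ) (S : St X H) (f : H) (y : X) (m0 m1 : X → ℝ) (D : ℝ), IsMet d → Par X k I Q →
    Valid d Q S → RelM d k y m0 m1 D → Fresh S.φ f →
    ∃ S' Lip, StepOK d I Q C S f y m0 m1 D S' Lip

/-- **REL**. The posterior quantities. In a world `b` equivalent to `ω` at time `t + 1` the request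
is the same (`σ b t = σ ω t`); only the mover differs between the two configurations. -/
def RelStmt : Prop :=
  ∀ (X Ω : Type) [MetricSpace X] [Fintype X] [Fintype Ω] (k : ℕ) (P : Bay Ω) (s : ℝ)
    (s0 : Fin k → X) (σ : Ω → ℕ → X) (j : Ω → ℕ → Fin k) (t : ℕ), 0 < s → Pref P σ →
    IsMet (ds s : X → X → ℝ) ∧ P.Ad (t + 1) (fun ω => σ ω t) ∧
    (∀ r (m : X → ℝ) (y : X), ms (ds s) m y r = ms dist m y (r * s)) ∧
    ∀ ω, RelM (ds s) k (σ ω t) (M0 P s s0 σ j t ω) (M1 P s0 σ j t ω) (DS P s s0 σ j t ω) ∧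
      s * DS P s s0 σ j t ω ≤ DF P s0 σ j t ω ∧ 0 ≤ DF P s0 σ j t ω

/-- **EXP**. One step in expectation: `E ∑_i F(p0 i) = E ∑_x M0 x * F x` for adapted `F`,
`E [1_short (d/s) Lip] = E [DS * Lip]`, a long move raises the potential by at most
`8 lv I I + 64 ≤ 72 lv I I`. -/
def ExpStmt : Prop :=
  ∀ (X Ω H : Type) [MetricSpace X] [Fintype X] [Fintype Ω] [Fintype H] [Nonempty H] (k I Q : ℕ)
    (P : Bay Ω) (C s : ℝ) (s0 : Fin k → X) (σ : Ω → ℕ → X) (j : Ω → ℕ → Fin k) (t : ℕ)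
    (S S' : Ω → St X H) (Lip : Ω → ℝ) (f : H), 0 < s → 0 ≤ C → Pref P σ → Par X k I Q →
    P.Ad (t + 1) S → P.Ad (t + 1) S' → P.Ad (t + 1) Lip → (∀ ω, Valid (ds s) Q (S ω)) →
    (∀ ω, StepOK (ds s) I Q C (S ω) f (σ ω t) (M0 P s s0 σ j t ω) (M1 P s0 σ j t ω)
      (DS P s s0 σ j t ω) (S' ω) (Lip ω)) →
    P.Ex (fun ω => ecs Q s s0 (σ ω) (j ω) t (S ω) (S' ω) +
      ∑ i, pot (ds s) I Q (S' ω) (optCfg s0 (σ ω) (j ω) (t + 1) i) -
      ∑ i, pot (ds s) I Q (S ω) (optCfg s0 (σ ω) (j ω) t i)) ≤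
      (C + 72) * P.Ex (fun ω => bud P I s s0 σ j t ω)

/-- **PROC**. Recursion with `H = Fin (n + 1)`: start with constant `φ h = 1 + ∑ d x x'`, no tokens;
for `t < n` the step (chosen as a function of `(S, y, m0, m1, D)`) with `f = t`, invariant: all
`h ≥ t` are fresh; for `t ≥ n` the state is frozen. Telescope EXP; `0 ≤ pot ≤ 72 lv I I`. -/
def ProcStmt : Prop :=
  ∃ C : ℝ, 0 ≤ C ∧ ∀ (X Ω : Type) [MetricSpace X] [Fintype X] [Fintype Ω] (k I Q n : ℕ)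
    (P : Bay Ω) (s : ℝ) (s0 : Fin k → X) (σ : Ω → ℕ → X) (j : Ω → ℕ → Fin k), 0 < s → Pref P σ →
    Par X k I Q → ∃ S : ℕ → Ω → St X (Fin (n + 1)), ProcOK P I Q C s n s0 σ j S

/-- **SUM1**. For fixed `u ∈ (0,1]` take `p` with `1024^(-p) ≤ u/1024`, `p ≤ 2 + log (1/u)`;
`∑_l (F (8 s_l) - F (8 s_l 1024^(-p))) ≤ p log k` telescopes (`F r = log (ms dist m y r) ∈ [0, log k]`
monotone on `r ≥ 0`); integrate. -/
def Sum1Stmt : Prop :=
  ∀ (X : Type) [MetricSpace X] [Fintype X] (m : X → ℝ) (y : X) (K lam : ℝ) (J : ℕ),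
    (∀ x, 0 ≤ m x) → 1 ≤ m y → ∑ x, m x ≤ K → 0 < lam →
    ∑ l ∈ range J, ell (ds (lam * 1024 ^ l)) m y ≤ 3 * Real.log K

/-- **SUM2**. Harmonic sum (sort by the distance; `m / M ≤ log M - log (M - m)`), and the geometric
sum over the scales. -/
def Sum2Stmt : Prop :=
  ∀ (X : Type) [MetricSpace X] [Fintype X] (m : X → ℝ) (y : X) (K lam : ℝ) (J : ℕ),
    (∀ x, 0 ≤ m x) → 1 ≤ m y → ∑ x, m x ≤ K → 0 < lam →
    ∑ x, m x / ms dist m y (dist y x) ≤ 1 + Real.log K ∧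
    ∑ l ∈ range J, WW (ds (lam * 1024 ^ l)) m y / ms (ds (lam * 1024 ^ l)) m y (1 / 128) ≤
      1 + Real.log K

/-- **SUM3**. Geometric sums. -/
def Sum3Stmt : Prop :=
  ∀ (lam D : ℝ) (J : ℕ), 0 < lam → 0 ≤ D →
    (∑ l ∈ range J, if D / (lam * 1024 ^ l) ≤ 1 / 128 then 0 else lam * 1024 ^ l) ≤ 256 * D ∧
    ∀ e : ℕ → ℝ, (∀ l, 0 ≤ e l ∧ e l ≤ 1 / 128 ∧ lam * 1024 ^ l * e l ≤ D) →
      ∑ l ∈ range J, lam * 1024 ^ l * e l ^ 2 ≤ 4 * D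

/-- **BUD**. The budgets of all scales (REL, SUM1-3, `E DF = E mvd`, `∑ mvd = optCost`), and the
anchor drift (`E ∑_i g(opt i) = E ∑_x M1 x * g x`, SUM2). -/
def BudStmt : Prop :=
  ∃ C : ℝ, 0 ≤ C ∧ ∀ (X Ω : Type) [MetricSpace X] [Fintype X] [Fintype Ω] (k I n J : ℕ)
    (P : Bay Ω) (lam : ℝ) (s0 : Fin k → X) (σ : Ω → ℕ → X) (j : Ω → ℕ → Fin k), 0 < lam →
    Pref P σ → 2 ≤ k → lv I I ≤ 40 * Real.log (k + 1) →
    ∑ l ∈ range J, lam * 1024 ^ l *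
        P.Ex (fun ω => ∑ t ∈ range n, bud P I (lam * 1024 ^ l) s0 σ j t ω) ≤
      C * Real.log (k + 1) * P.Ex (fun ω => optCost s0 (σ ω) (j ω) n) ∧
    P.Ex (fun ω => ∑ t ∈ range n, ∑ l ∈ range J,
        if mvd s0 (σ ω) (j ω) t / (lam * 1024 ^ l) ≤ 1 / 128 then 0 else lam * 1024 ^ l) ≤
      C * Real.log (k + 1) * P.Ex (fun ω => optCost s0 (σ ω) (j ω) n) ∧
    P.Ex (fun ω => ∑ t ∈ range n, ∑ i : Fin k, 8 * DF P s0 σ j t ω /
        ms dist (M1 P s0 σ j t ω) (σ ω t) (dist (σ ω t) (optCfg s0 (σ ω) (j ω) (t + 1) i))) ≤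
      C * Real.log (k + 1) * P.Ex (fun ω => optCost s0 (σ ω) (j ω) n)

/-- **ANC**. Anchors are close to the points of their cells, and only heavy anchors move. -/
def AncStmt : Prop :=
  ∀ (X H : Type) [MetricSpace X] [Fintype X] [Fintype H] [Nonempty H] (Q : ℕ) (s ρ R : ℝ)
    (o : Ord X Q) (S : St X H), 0 < s → ρ ≤ 1 / 4 → 0 ≤ R → R ≤ 2 →
    (∀ x, Valid (ds s) Q S →
      dist (fun z => s * anc (ds s) Q S (lab (ds s) Q S ρ R o x) z) (kur x) ≤ 2 * s) ∧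
    ∀ (S' : St X H) (x x' : X) (G : ℝ), 0 ≤ G →
      lab (ds s) Q S ρ R o x' = lab (ds s) Q S' ρ R o x →
      (∀ h z, S.φ h x' ≤ 1 / 4 → S'.φ h x ≤ 1 / 4 → s * |S'.φ h z - S.φ h z| ≤ G) →
      dist (fun z => s * anc (ds s) Q S (lab (ds s) Q S' ρ R o x) z)
        (fun z => s * anc (ds s) Q S' (lab (ds s) Q S' ρ R o x) z) ≤ G

/-- **PAR**. The parameters: `I = 14 + Nat.log 2 k`, `Q = 2^(I+1) (card X + 1)`. -/
def ParStmt : Prop :=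
  ∀ (k : ℕ), 2 ≤ k → ∃ I : ℕ, lv I I ≤ 40 * Real.log (k + 1) ∧ 0 ≤ lv I I ∧
    ∀ (X : Type) [Fintype X], ∃ Q, Par X k I Q

theorem anchorE : True := by
  have := @Kat.eq_1; have := @HV.eq_1; have := @Fresh.eq_1; have := @Phi.eq_1; have := @gg.eq_1
  have := @psi.eq_1; have := @pick.eq_1; have := @hl.eq_1; have := @hc.eq_1; have := @ms.eq_1
  have := @om.eq_1; have := @Pack.eq_1; have := @e0.eq_1; have := @lv.eq_1; have := @LL.eq_1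
  have := @PL.eq_1; have := @TL.eq_1; have := @ZZ.eq_1; have := @tk.eq_1; have := @ll.eq_1
  have := @lo.eq_1; have := @lc.eq_1; have := @cov.eq_1; have := @mh.eq_1; have := @Stab.eq_1
  have := @ell.eq_1; have := @WW.eq_1; have := @Par.eq_1; have := @Valid.eq_1; have := @pot.eq_1
  have := @ec.eq_1; have := @lab.eq_1; have := @anc.eq_1; have := @StepOK.eq_1; have := @ds.eq_1
  have := @mvd.eq_1; have := @p0.eq_1; have := @M1.eq_1; have := @M0.eq_1; have := @DS.eq_1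
  have := @DF.eq_1; have := @bud.eq_1; have := @ecs.eq_1; have := @ProcOK.eq_1
  have := @first.eq_1
  trivial

end Crest.Agent.KS.E
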