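import Crest.Agent.R314G.Defs

/-! Row 314 (E, second route), task EXP. -/

set_option autoImplicit false

namespace Crest.Agent.KS.E

open Finset
open scoped Classical

namespace EXP

theorem sum_update {X : Type} {k : ℕ} (a : Fin k → X) (i0 : Fin k) (y : X) (F : X → ℝ) :
    ∑ i, F (Function.update a i0 y i) = ∑ i, F (a i) + (F y - F (a i0)) := by
  have h1 : ∀ i, F (Function.update a i0 y i) =
      F (a i) + if i = i0 then F y - F (a i0) else 0 := by
    intro i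
    by_cases h : i = i0
    · subst h; simp
    · rw [Function.update_of_ne h, if_neg h, add_zero]
  simp_rw [h1]
  rw [Finset.sum_add_distrib, Finset.sum_ite_eq' univ i0, if_pos (mem_univ _)]

theorem sum_cnt {X : Type} [Fintype X] {k : ℕ} (a : Fin k → X) (F : X → ℝ) :
    ∑ i, F (a i) = ∑ x, F x * ∑ i, if a i = x then (1 : ℝ) else 0 := by
  simp_rw [Finset.mul_sum]
  rw [Finset.sum_comm]
  refine Finset.sum_congr rfl fun i _ => ?_
  simp

theorem one_le_lv {I : ℕ} (hI : 13 ≤ I) (h : ((I : ℝ) + 1) * Real.log 2 ≤ lv I I) : 1 ≤ lv I I := by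
  have h1 : (13 : ℝ) ≤ I := by exact_mod_cast hI
  have h2 := Real.log_two_gt_d9
  nlinarith

end EXP

theorem EXP_proof (hBas : BasStmt) (hHv0 : Hv0Stmt) (hMs : MsStmt) (hRel : RelStmt) : ExpStmt := by
  intro X Ω H _ _ _ _ _ k I Q P C s s0 σ j t S S' Lip f hs hC hPref hPar hS hS' hLip hV hStep
  obtain ⟨hMet, -, -, hR⟩ := hRel X Ω k P s s0 σ j t hs hPref
  have hlv : 1 ≤ lv I I :=
    EXP.one_le_lv hPar.1 ((hBas X (ds s) I Q (fun _ => 0) hMet).1.2.2.2.1 I).1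
  -- bounds for the potential
  have hpot : ∀ (T : St X H), Valid (ds s) Q T → ∀ x,
      0 ≤ pot (ds s) I Q T x ∧ pot (ds s) I Q T x ≤ 72 * lv I I := by
    intro T hT x
    obtain ⟨-, -, hg, -, -, hd⟩ := hHv0 X H T.φ
    have h1 := ((hBas X (ds s) I Q T.n hMet).2.2.2.2.2 hT.2).2.2.1 x (gg T.φ x) (hg x).1 (hg x).2.1
    have h2 := ((hd (ds s) hMet hT.1).1 x).2
    have h3 := (hg x).2.2
    unfold pot
    constructor <;> nlinarith [h1.1, h1.2.1]
  set F : Ω → X → ℝ := fun ω x =>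
    pot (ds s) I Q (S' ω) x - pot (ds s) I Q (S ω) x + ec (ds s) Q (S ω) x (S' ω) x with hF
  set sh : Ω → ℝ := fun b =>
    if mvd s0 (σ b) (j b) t / s ≤ 1 / 128 then mvd s0 (σ b) (j b) t / s else 0 with hsh
  set lg : Ω → ℝ := fun b => if mvd s0 (σ b) (j b) t / s ≤ 1 / 128 then 0 else lv I I with hlg
  set cnt : X → Ω → ℝ := fun x b => ∑ i, if p0 s s0 (σ b) (j b) t i = x then (1 : ℝ) else 0
    with hcnt
  -- pointwise bound
  have hpt : ∀ ω, ecs Q s s0 (σ ω) (j ω) t (S ω) (S' ω) +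
      ∑ i, pot (ds s) I Q (S' ω) (optCfg s0 (σ ω) (j ω) (t + 1) i) -
      ∑ i, pot (ds s) I Q (S ω) (optCfg s0 (σ ω) (j ω) t i) ≤
      (∑ x, F ω x * cnt x ω + Lip ω * sh ω) + 72 * lg ω := by
    intro ω
    have hc : ∑ x, F ω x * cnt x ω = ∑ i, F ω (p0 s s0 (σ ω) (j ω) t i) :=
      (EXP.sum_cnt _ (F ω)).symm
    rw [hc]
    have hup : optCfg s0 (σ ω) (j ω) (t + 1) =
        Function.update (optCfg s0 (σ ω) (j ω) t) (j ω t) (σ ω t) := rfl
    simp only [hF, hsh, hlg, Finset.sum_add_distrib, Finset.sum_sub_distrib]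
    unfold ecs
    by_cases h : mvd s0 (σ ω) (j ω) t / s ≤ 1 / 128
    · have hp : p0 s s0 (σ ω) (j ω) t = optCfg s0 (σ ω) (j ω) t := by unfold p0; rw [if_pos h]
      have hd : ds s (σ ω t) (optCfg s0 (σ ω) (j ω) t (j ω t)) = mvd s0 (σ ω) (j ω) t / s := by
        unfold ds mvd; rw [dist_comm]
      have h4 := (hStep ω).2.2.2.1 (optCfg s0 (σ ω) (j ω) t (j ω t)) (by rw [hd]; exact h)
      rw [hd] at h4
      rw [hp, if_pos h, if_pos h, if_pos h, hup, EXP.sum_update]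
      linarith
    · have hp : p0 s s0 (σ ω) (j ω) t = optCfg s0 (σ ω) (j ω) (t + 1) := by
        unfold p0; rw [if_neg h]
      rw [hp, if_neg h, if_neg h, if_neg h]
      have h5 := EXP.sum_update (optCfg s0 (σ ω) (j ω) t) (j ω t) (σ ω t) (pot (ds s) I Q (S ω))
      rw [← hup] at h5
      have h6 := (hpot (S ω) (hV ω) (σ ω t)).2
      have h7 := (hpot (S ω) (hV ω) (optCfg s0 (σ ω) (j ω) t (j ω t))).1
      linarith
  have hFad : ∀ x, P.Ad (t + 1) (fun ω => F ω x) := by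
    intro x a b hab
    simp only [hF]
    rw [hS a b hab, hS' a b hab]
  have hE1 : P.Ex (fun ω => ∑ x, F ω x * cnt x ω) =
      P.Ex (fun ω => ∑ x, M0 P s s0 σ j t ω x * F ω x) := by
    rw [P.ex_sum univ (fun x ω => F ω x * cnt x ω),
      P.ex_sum univ (fun x ω => M0 P s s0 σ j t ω x * F ω x)]
    refine Finset.sum_congr rfl fun x _ => ?_
    rw [← P.ex_cond (t + 1) (cnt x) (fun ω => F ω x) (hFad x)]
    congr 1
    funext ω
    rw [mul_comm]
    rfl
  have hE2 : P.Ex (fun ω => Lip ω * sh ω) = P.Ex (fun ω => DS P s s0 σ j t ω * Lip ω) := by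
    rw [← P.ex_cond (t + 1) sh Lip hLip]
    congr 1
    funext ω
    rw [mul_comm]
    rfl
  refine le_trans (P.ex_mono hpt) ?_
  rw [P.ex_add, P.ex_add, hE1, hE2, ← P.ex_add, ← P.ex_add, ← P.ex_mul]
  refine P.ex_mono fun ω => ?_
  have h5 := (hStep ω).2.2.2.2
  obtain ⟨hRM, -, -⟩ := hR ω
  obtain ⟨-, hms, -, hW, -, -, hell⟩ :=
    hMs X (ds s) (M1 P s0 σ j t ω) (σ ω t) hMet hRM.h1
  obtain ⟨-, he1, he2⟩ := hell hRM.one
  have hb0 : 0 ≤ DS P s s0 σ j t ω * (ell (ds s) (M1 P s0 σ j t ω) (σ ω t) +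
      WW (ds s) (M1 P s0 σ j t ω) (σ ω t) / ms (ds s) (M1 P s0 σ j t ω) (σ ω t) (1 / 128)) +
      lv I I * DS P s s0 σ j t ω ^ 2 := by
    have e1 := div_nonneg hW (hms (1 / 128)).1
    have e2 := hRM.hD
    have e3 : 0 ≤ ell (ds s) (M1 P s0 σ j t ω) (σ ω t) := he1.trans he2
    have e4 : 0 ≤ lv I I := by linarith
    positivity
  have hlg0 : 0 ≤ lg ω := by
    simp only [hlg]
    split_ifs
    · exact le_rfl
    · linarith
  have hbud : bud P I s s0 σ j t ω = (DS P s s0 σ j t ω * (ell (ds s) (M1 P s0 σ j t ω) (σ ω t) +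
      WW (ds s) (M1 P s0 σ j t ω) (σ ω t) / ms (ds s) (M1 P s0 σ j t ω) (σ ω t) (1 / 128)) +
      lv I I * DS P s s0 σ j t ω ^ 2) + lg ω := rfl
  rw [hbud]
  simp only [hF]
  nlinarith [mul_nonneg hC hlg0]

end Crest.Agent.KS.E
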