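import Crest.Agent.R314G.Defs

/-! Row 314, part E: the process of the states of one scale (task PROC). -/

set_option autoImplicit false

namespace Crest.Agent.KS.E

open Finset
open scoped Classical

namespace PROC

section

variable {X H : Type} [Fintype X] [Fintype H] [Nonempty H]

/-- the step, as a function of its data -/
noncomputable def stepF (d : X → X → ℝ) (I Q : ℕ) (C : ℝ) (S : St X H) (f : H) (y : X)
    (m0 m1 : X → ℝ) (D : ℝ) : St X H × ℝ :=
  if h : ∃ p : St X H × ℝ, StepOK d I Q C S f y m0 m1 D p.1 p.2 then h.choose else (S, 0)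

theorem stepF_ok (d : X → X → ℝ) (I Q : ℕ) (C : ℝ) (S : St X H) (f : H) (y : X)
    (m0 m1 : X → ℝ) (D : ℝ) (h : ∃ S' Lip, StepOK d I Q C S f y m0 m1 D S' Lip) :
    StepOK d I Q C S f y m0 m1 D (stepF d I Q C S f y m0 m1 D).1
      (stepF d I Q C S f y m0 m1 D).2 := by
  have h' : ∃ p : St X H × ℝ, StepOK d I Q C S f y m0 m1 D p.1 p.2 := by
    obtain ⟨S', L, hS⟩ := h
    exact ⟨(S', L), hS⟩
  unfold stepF
  rw [dif_pos h']
  exact h'.choose_spec

/-- the initial state -/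
noncomputable def init (H : Type) (d : X → X → ℝ) : St X H :=
  ⟨fun _ _ => 1 + ∑ a, ∑ b, d a b, fun _ => 0⟩

omit [Fintype H] [Nonempty H] in
theorem init_ok (d : X → X → ℝ) (Q : ℕ) (hd : IsMet d) :
    Valid d Q (init H d) ∧ ∀ h, Fresh (init H d).φ h := by
  have hB : 0 ≤ ∑ a, ∑ b, d a b :=
    sum_nonneg fun a _ => sum_nonneg fun b _ => hd.nonneg a b
  have hle : ∀ x z, d x z ≤ ∑ a, ∑ b, d a b := by
    intro x z
    calc d x z ≤ ∑ b, d x b :=
          single_le_sum (f := fun b => d x b) (fun b _ => hd.nonneg x b) (mem_univ z)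
      _ ≤ ∑ a, ∑ b, d a b :=
          single_le_sum (f := fun a => ∑ b, d a b)
            (fun a _ => sum_nonneg fun b _ => hd.nonneg a b) (mem_univ x)
  refine ⟨⟨⟨fun h => ⟨fun x z => ?_, fun x z => ?_⟩, fun h h' x _ => ?_⟩, fun x => ?_⟩,
    fun h x => ?_⟩
  · have := hd.nonneg x z
    simp only [init]
    linarith
  · have := hle x z
    simp only [init]
    linarith
  · simp only [init]
    linarith
  · simp [init, om, ms]
  · simp only [init]
    linarith

theorem pot_bd (hBas : BasStmt) (hHv0 : Hv0Stmt) (d : X → X → ℝ) (k I Q : ℕ) (hd : IsMet d)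
    (hP : Par X k I Q) (S : St X H) (hS : Valid d Q S) (x : X) :
    0 ≤ pot d I Q S x ∧ pot d I Q S x ≤ 72 * lv I I := by
  obtain ⟨⟨-, -, -, hlv, -⟩, -, -, -, -, hpk⟩ := hBas X d I Q S.n hd
  obtain ⟨-, -, hg, -, -, hv⟩ := hHv0 X H S.φ
  obtain ⟨-, -, hPL, -⟩ := hpk hS.2
  obtain ⟨h1, h2, -⟩ := hPL x (gg S.φ x) (hg x).1 (hg x).2.1
  have h3 := (hg x).2.2
  have h4 := ((hv d hd hS.1).1 x).2
  have h5 : (1 : ℝ) ≤ lv I I := by
    have hI : (13 : ℝ) ≤ I := by exact_mod_cast hP.1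
    have hl := Real.log_two_gt_d9
    have := (hlv I).1
    nlinarith
  unfold pot
  constructor
  · linarith
  · linarith

end

section

variable {X Ω : Type} [MetricSpace X] [Fintype X] [Fintype Ω] {k : ℕ}

/-- the process -/
noncomputable def proc (P : Bay Ω) (I Q : ℕ) (C s : ℝ) (n : ℕ) (s0 : Fin k → X) (σ : Ω → ℕ → X)
    (j : Ω → ℕ → Fin k) : ℕ → Ω → St X (Fin (n + 1))
  | 0 => fun _ => init (Fin (n + 1)) (ds s)
  | t + 1 => fun ω =>
    if h : t < n then
      (stepF (ds s) I Q C (proc P I Q C s n s0 σ j t ω) ⟨t, Nat.lt_succ_of_lt h⟩ (σ ω t)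
        (M0 P s s0 σ j t ω) (M1 P s0 σ j t ω) (DS P s s0 σ j t ω)).1
    else proc P I Q C s n s0 σ j t ω

theorem proc_lt (P : Bay Ω) (I Q : ℕ) (C s : ℝ) (n : ℕ) (s0 : Fin k → X) (σ : Ω → ℕ → X)
    (j : Ω → ℕ → Fin k) (t : ℕ) (h : t < n) (ω : Ω) :
    proc P I Q C s n s0 σ j (t + 1) ω =
      (stepF (ds s) I Q C (proc P I Q C s n s0 σ j t ω) ⟨t, Nat.lt_succ_of_lt h⟩ (σ ω t)
        (M0 P s s0 σ j t ω) (M1 P s0 σ j t ω) (DS P s s0 σ j t ω)).1 := by
  simp only [proc, dif_pos h]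

theorem proc_ge (P : Bay Ω) (I Q : ℕ) (C s : ℝ) (n : ℕ) (s0 : Fin k → X) (σ : Ω → ℕ → X)
    (j : Ω → ℕ → Fin k) (t : ℕ) (h : ¬ t < n) (ω : Ω) :
    proc P I Q C s n s0 σ j (t + 1) ω = proc P I Q C s n s0 σ j t ω := by
  simp only [proc, dif_neg h]

omit [Fintype X] in
theorem data_ad (P : Bay Ω) (s : ℝ) (s0 : Fin k → X) (σ : Ω → ℕ → X) (j : Ω → ℕ → Fin k) (t : ℕ)
    {a b : Ω} (hab : P.eqv (t + 1) a b) :
    M0 P s s0 σ j t a = M0 P s s0 σ j t b ∧ M1 P s0 σ j t a = M1 P s0 σ j t b ∧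
      DS P s s0 σ j t a = DS P s s0 σ j t b :=
  ⟨funext fun _ => P.ad_cond _ _ a b hab, funext fun _ => P.ad_cond _ _ a b hab,
    P.ad_cond _ _ a b hab⟩

end

end PROC

open PROC in
theorem PROC_proof (hBas : BasStmt) (hHv0 : Hv0Stmt) (hMs : MsStmt) (hRel : RelStmt)
    (hStep : StepStmt) (hExp : ExpStmt) : ProcStmt := by
  obtain ⟨C, hC, hStep⟩ := hStep
  refine ⟨C + 72, by linarith, ?_⟩
  intro X Ω _ _ _ k I Q n P s s0 σ j hs hPref hPar
  have hR := fun t => hRel X Ω k P s s0 σ j t hs hPref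
  have hd : IsMet (ds s : X → X → ℝ) := (hR 0).1
  set S := proc P I Q C s n s0 σ j with hSdef
  have hlt := proc_lt P I Q C s n s0 σ j
  have hge := proc_ge P I Q C s n s0 σ j
  rw [← hSdef] at hlt hge
  -- adaptedness
  have hAd : ∀ t, P.Ad t (S t) := by
    intro t
    induction t with
    | zero => intro a b _; rfl
    | succ t ih =>
      intro a b hab
      have h1 : S t a = S t b := ih a b (P.mono t a b hab)
      by_cases h : t < n
      · obtain ⟨h2, h3, h4⟩ := data_ad P s s0 σ j t hab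
        have h5 : σ a t = σ b t := (hR t).2.1 a b hab
        rw [hlt t h a, hlt t h b, h1, h2, h3, h4, h5]
      · rw [hge t h a, hge t h b, h1]
  -- the invariant
  have hInv : ∀ t ω, Valid (ds s) Q (S t ω) ∧
      ∀ h : Fin (n + 1), t ≤ (h : ℕ) → Fresh (S t ω).φ h := by
    intro t
    induction t with
    | zero =>
      intro ω
      exact ⟨(init_ok (H := Fin (n + 1)) (ds s) Q hd).1,
        fun h _ => (init_ok (H := Fin (n + 1)) (ds s) Q hd).2 h⟩
    | succ t ih =>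
      intro ω
      by_cases h : t < n
      · have hok := stepF_ok _ _ _ _ _ _ _ _ _ _
          (hStep X (Fin (n + 1)) (ds s) k I Q (S t ω) ⟨t, Nat.lt_succ_of_lt h⟩ (σ ω t) _ _ _ hd hPar
            (ih ω).1 ((hR t).2.2.2 ω).1 ((ih ω).2 _ le_rfl))
        rw [hlt t h ω]
        refine ⟨hok.1, fun h' hh => hok.2.1 h' ?_ ((ih ω).2 h' (by omega))⟩
        intro he
        rw [he] at hh
        simp at hh
      · rw [hge t h ω]
        exact ⟨(ih ω).1, fun h' hh => (ih ω).2 h' (by omega)⟩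
  have hOK : ∀ t (h : t < n) ω, StepOK (ds s) I Q C (S t ω) ⟨t, Nat.lt_succ_of_lt h⟩ (σ ω t)
      (M0 P s s0 σ j t ω) (M1 P s0 σ j t ω) (DS P s s0 σ j t ω) (S (t + 1) ω)
      (stepF (ds s) I Q C (S t ω) ⟨t, Nat.lt_succ_of_lt h⟩ (σ ω t)
        (M0 P s s0 σ j t ω) (M1 P s0 σ j t ω) (DS P s s0 σ j t ω)).2 := by
    intro t h ω
    rw [hlt t h ω]
    exact stepF_ok _ _ _ _ _ _ _ _ _ _
      (hStep X (Fin (n + 1)) (ds s) k I Q (S t ω) ⟨t, Nat.lt_succ_of_lt h⟩ (σ ω t) _ _ _ hd hPar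
        (hInv t ω).1 ((hR t).2.2.2 ω).1 ((hInv t ω).2 _ le_rfl))
  refine ⟨S, hAd, fun t ω => (hInv t ω).1, ?_, ?_⟩
  · intro t ω h x x' z h1 h2
    obtain ⟨-, -, hms, hω⟩ := hR t
    obtain ⟨hrel, hDS, hDF⟩ := hω ω
    have hx : ds s (σ ω t) x * s = dist (σ ω t) x := by
      unfold ds
      field_simp
    have hm0 : 0 ≤ ms dist (M1 P s0 σ j t ω) (σ ω t) (dist (σ ω t) x) := by
      rw [← hx, ← hms]
      exact ((hMs X (ds s) _ (σ ω t) hd hrel.h1).2.1 _).1
    by_cases ht : t < n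
    · have h3 := (hOK t ht ω).2.2.1 h x x' z h1 h2
      rw [hms, hx] at h3
      calc s * |(S (t + 1) ω).φ h z - (S t ω).φ h z|
          ≤ s * (8 * DS P s s0 σ j t ω / ms dist (M1 P s0 σ j t ω) (σ ω t) (dist (σ ω t) x)) :=
            mul_le_mul_of_nonneg_left h3 hs.le
        _ = 8 * (s * DS P s s0 σ j t ω) / ms dist (M1 P s0 σ j t ω) (σ ω t) (dist (σ ω t) x) := by
            ring
        _ ≤ 8 * DF P s0 σ j t ω / ms dist (M1 P s0 σ j t ω) (σ ω t) (dist (σ ω t) x) :=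
            div_le_div_of_nonneg_right (by linarith) hm0
    · rw [hge t ht ω, sub_self, abs_zero, mul_zero]
      exact div_nonneg (by linarith) hm0
  · set Pt : ℕ → ℝ := fun t =>
      P.Ex (fun ω => ∑ i, pot (ds s) I Q (S t ω) (optCfg s0 (σ ω) (j ω) t i)) with hPt
    have hstep : ∀ t ∈ range n,
        P.Ex (fun ω => ecs Q s s0 (σ ω) (j ω) t (S t ω) (S (t + 1) ω)) + (Pt (t + 1) - Pt t) ≤
          (C + 72) * P.Ex (fun ω => bud P I s s0 σ j t ω) := by
      intro t ht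
      have ht' : t < n := mem_range.1 ht
      have hLip : P.Ad (t + 1) (fun ω => (stepF (ds s) I Q C (S t ω) ⟨t, Nat.lt_succ_of_lt ht'⟩
          (σ ω t) (M0 P s s0 σ j t ω) (M1 P s0 σ j t ω) (DS P s s0 σ j t ω)).2) := by
        intro a b hab
        have h1 : S t a = S t b := hAd t a b (P.mono t a b hab)
        obtain ⟨h2, h3, h4⟩ := data_ad P s s0 σ j t hab
        have h5 : σ a t = σ b t := (hR t).2.1 a b hab
        simp only [h1, h2, h3, h4, h5]
      have h := hExp X Ω (Fin (n + 1)) k I Q P C s s0 σ j t (S t) (S (t + 1)) _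
        ⟨t, Nat.lt_succ_of_lt ht'⟩ hs hC hPref hPar (P.ad_mono (Nat.le_succ t) (hAd t))
        (hAd (t + 1)) hLip (fun ω => (hInv t ω).1) (hOK t ht')
      have e : P.Ex (fun ω => ecs Q s s0 (σ ω) (j ω) t (S t ω) (S (t + 1) ω) +
          ∑ i, pot (ds s) I Q (S (t + 1) ω) (optCfg s0 (σ ω) (j ω) (t + 1) i) -
          ∑ i, pot (ds s) I Q (S t ω) (optCfg s0 (σ ω) (j ω) t i)) =
          P.Ex (fun ω => ecs Q s s0 (σ ω) (j ω) t (S t ω) (S (t + 1) ω)) +
            (Pt (t + 1) - Pt t) := by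
        simp only [hPt, Bay.Ex, mul_add, mul_sub, sum_add_distrib, sum_sub_distrib]
        ring
      rw [← e]
      exact h
    have hsum := sum_le_sum hstep
    rw [sum_add_distrib, sum_range_sub, ← mul_sum, ← P.ex_sum, ← P.ex_sum] at hsum
    have hn : 0 ≤ Pt n := by
      have := P.ex_mono (f := fun _ => (0 : ℝ))
        (g := fun ω => ∑ i, pot (ds s) I Q (S n ω) (optCfg s0 (σ ω) (j ω) n i))
        (fun ω => sum_nonneg fun i _ =>
          (pot_bd hBas hHv0 (ds s) k I Q hd hPar _ (hInv n ω).1 _).1)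
      rw [P.ex_const] at this
      exact this
    have h0 : Pt 0 ≤ k * (72 * lv I I) := by
      have := P.ex_mono (g := fun _ => (k : ℝ) * (72 * lv I I))
        (f := fun ω => ∑ i, pot (ds s) I Q (S 0 ω) (optCfg s0 (σ ω) (j ω) 0 i))
        (fun ω => by
          have h := sum_le_sum (s := (univ : Finset (Fin k))) fun i _ =>
            (pot_bd hBas hHv0 (ds s) k I Q hd hPar _ (hInv 0 ω).1 (optCfg s0 (σ ω) (j ω) 0 i)).2
          simpa using h)
      rw [P.ex_const] at this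
      exact this
    have hlv : 0 ≤ lv I I := by
      obtain ⟨⟨-, -, -, hlv, -⟩, -⟩ := hBas X (ds s) I Q (fun _ => 0) hd
      have := (hlv I).1
      have hl := Real.log_two_gt_d9
      have hI : (0 : ℝ) ≤ I := Nat.cast_nonneg I
      nlinarith
    have hk : 0 ≤ C * (k * lv I I) := mul_nonneg hC (mul_nonneg (Nat.cast_nonneg k) hlv)
    nlinarith

end Crest.Agent.KS.E
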